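import Vale.Agent.P120.H791.Main

open MeasureTheory

namespace Vale.Agent.Results.P120.MultiscaleDavidSemmes

open Vale.Agent.P120

/-- **The David-Semmes problem for Riesz transforms**, with the quantitative and multiscale
conclusions. -/
theorem result :
    (∀ n d : ℕ, 1 ≤ n → n < d → ∀ μ : Measure (Eu d), IsLocallyFiniteMeasure μ →
      ADRegular n μ → RieszBounded n μ → UniformlyRectifiable n μ) ∧
    ∀ n d : ℕ, 1 ≤ n → n ≤ d → ∀ C₀ C₁ : ℝ,
      ∃ (θ : ℝ) (M : NNReal) (D : ℝ), 0 < θ ∧ 1 ≤ D ∧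
        (∀ μ : Measure (Eu d), ADRegularWith n C₀ μ → RieszBoundedWith n C₁ μ →
          UniformlyRectifiableWith n θ M μ) ∧
        ∀ K ε : ℝ, 0 < K → 0 < ε → ∃ A : ℝ, ∀ μ : Measure (Eu d),
          ADRegularWith n C₀ μ → RieszBoundedWith n C₁ μ →
          OffCarleson n A μ (FlatAt n μ D K ε) ∧ OffCarleson n A μ (BilaterallyFlatAt n μ K ε) :=
  ⟨fun n d hn hnd μ hloc hreg hbdd => main n d hn hnd μ hloc hreg hbdd,
    fun n d hn hnd C₀ C₁ => MS.multiscale n d hn hnd C₀ C₁⟩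

end Vale.Agent.Results.P120.MultiscaleDavidSemmes
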