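import Vale.Agent.P120.H982.Cheb

open MeasureTheory Metric Set

namespace Vale.Agent.Results.P120.WeakTestingDavidSemmes

open Vale.Agent.P120

/-- **The David-Semmes problem for Riesz transforms**, and its form for measures which satisfy
only a weak testing condition on balls, with very big pieces of Lipschitz images. -/
theorem result :
    (∀ n d : ℕ, 1 ≤ n → n < d → ∀ μ : Measure (Eu d), IsLocallyFiniteMeasure μ →
      ADRegular n μ → RieszBounded n μ → UniformlyRectifiable n μ) ∧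
    ∀ n d : ℕ, 1 ≤ n → n ≤ d → ∀ C₀ : ℝ, ∃ α : ℝ, 0 < α ∧
      (∀ C₁ : ℝ, ∃ lam : ℝ, ∀ μ : Measure (Eu d), ADRegularWith n C₀ μ →
        RieszBoundedWith n C₁ μ → WeakTesting n α lam μ) ∧
      ∀ lam η : ℝ, 0 < η → ∃ M : NNReal, ∀ μ : Measure (Eu d),
        ADRegularWith n C₀ μ → WeakTesting n α lam μ →
        ∀ x ∈ μ.support, ∀ r : ℝ, 0 < r → ENNReal.ofReal r ≤ ediam μ.support →
          ∃ g : Eu n → Eu d, LipschitzWith M g ∧
            μ (ball x r \ g '' ball 0 r) ≤ ENNReal.ofReal (η * r ^ n) := by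
  refine ⟨fun n d hn hnd μ hloc hreg hbdd => main n d hn hnd μ hloc hreg hbdd,
    fun n d hn hnd C₀ => ?_⟩
  obtain ⟨α, hα, H⟩ := very_big_pieces n d hn hnd C₀
  exact ⟨α, hα, fun C₁ => weak_of_bounded n d C₀ C₁ α hα, H⟩

end Vale.Agent.Results.P120.WeakTestingDavidSemmes
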